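import Vale.Agent.P181.RH.H627.UDefs
import Vale.Agent.P181.RV.H627.NumU

set_option autoImplicit false

/-!
# P181, RHU: the numbers, uniform in `q`
-/

namespace Vale.Agent.P181.RH.H627

open Real

/-- The comparison of the exponents. -/
lemma expo {A x E u a m q : ℝ} (hx : 0.69 ≤ x) (hA0 : 0 ≤ A) (hA : A ≤ a) (hu : u ≤ 4 * (q * E))
    (ha0 : 0 ≤ a) (hau : a ≤ u) (hm : 3 ≤ m) (hE : 0 ≤ E) (hq : 1 ≤ q) :
    a * (2 * x + 1) + (m - 2) * a * x + u * (2 * A + 2 * x) + 2 * u * (x + A) ≤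
      (200 * q - 2) * x * ((m - 2) * E) + (2 * A - 3 * x) * (2 * (u - 2)) := by
  have hx0 : 0 < x := by linarith
  have hu0 : 0 ≤ u := le_trans ha0 hau
  have h3 : a * (2 * x + 1) ≤ 3.5 * (u * x) := by
    have h4 : 2 * x + 1 ≤ 3.5 * x := by linarith
    calc a * (2 * x + 1) ≤ u * (3.5 * x) := mul_le_mul hau h4 (by linarith) hu0
      _ = 3.5 * (u * x) := by ring
  have h5 : (m - 2) * a * x ≤ (m - 2) * (u * x) := by
    calc (m - 2) * a * x = (m - 2) * (a * x) := by ring
      _ ≤ (m - 2) * (u * x) := by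
        apply mul_le_mul_of_nonneg_left _ (by linarith)
        exact mul_le_mul_of_nonneg_right hau hx0.le
  have h6 : 8 * A ≤ 12 * (u * x) := by
    have h7 : 0.69 * u ≤ u * x := by nlinarith
    linarith
  have h8 : 198 * (q * E) * (x * (m - 2)) ≤ (200 * q - 2) * x * ((m - 2) * E) := by
    have h9 : 198 * q ≤ 200 * q - 2 := by linarith
    have h10 : 0 ≤ x * ((m - 2) * E) := mul_nonneg hx0.le (mul_nonneg (by linarith) hE)
    calc 198 * (q * E) * (x * (m - 2)) = (198 * q) * (x * ((m - 2) * E)) := by ring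
      _ ≤ (200 * q - 2) * (x * ((m - 2) * E)) := mul_le_mul_of_nonneg_right h9 h10
      _ = (200 * q - 2) * x * ((m - 2) * E) := by ring
  have h11 : 49.5 * u * (x * (m - 2)) ≤ 198 * (q * E) * (x * (m - 2)) := by
    apply mul_le_mul_of_nonneg_right _ (mul_nonneg hx0.le (by linarith))
    linarith
  have h12 : 26.5 * (u * x) ≤ 26.5 * ((m - 2) * (u * x)) := by
    have : 0 ≤ u * x := mul_nonneg hu0 hx0.le
    nlinarith
  have h13 : 0 ≤ (m - 2) * (u * x) := mul_nonneg (by linarith) (mul_nonneg hu0 hx0.le)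
  nlinarith

/-- **[NUMU]** -/
theorem numRHU : NumRHU := by
  refine ⟨200, 0, by norm_num, ?_⟩
  intro q a b X m u y G hq hqX _ hX100 hqu hub hbX hm hmX hy hG
  have hX : 2 ≤ X := by omega
  have hX0 : 0 < X := by omega
  have ha0 : 0 < a := lt_of_lt_of_le (by positivity) hX100
  have hau : a < u := by
    by_contra hcon
    have h1 : q * u ≤ q * a := Nat.mul_le_mul_left _ (by omega)
    have h2 : (q + 1) * a = q * a + a := by ring
    omega
  obtain ⟨v, rfl⟩ : ∃ v, u = a + v := ⟨u - a, by omega⟩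
  have hqv : a + 2 * q ≤ q * v := by
    have h2 : (q + 1) * a = q * a + a := by ring
    have h3 : q * (a + v) = q * a + q * v := by ring
    omega
  have hv3 : 3 ≤ v := by
    by_contra hcon
    have h1 : q * v ≤ q * 2 := Nat.mul_le_mul_left _ (by omega)
    omega
  obtain ⟨E, hE⟩ : ∃ E : ℕ, E = a + v - 2 - a := ⟨_, rfl⟩
  have hEv : E + 2 = v := by omega
  have hqE : a ≤ q * E := by
    have h1 : q * v = q * E + 2 * q := by
      rw [← hEv]
      ring
    omega
  have hX2 : (2 : ℝ) ≤ X := by exact_mod_cast hX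
  have hXR : (0 : ℝ) < X := by linarith
  have haR : (0 : ℝ) < a := by exact_mod_cast ha0
  have hyN : 0 < y := by
    by_contra hcon
    have h1 : 0 < X ^ (200 * q) * a := Nat.mul_pos (by positivity) ha0
    omega
  have hy0 : (0 : ℝ) < y := by exact_mod_cast hyN
  obtain ⟨A, hA⟩ : ∃ A, A = Real.log a := ⟨_, rfl⟩
  obtain ⟨x, hx⟩ : ∃ x, x = Real.log X := ⟨_, rfl⟩
  have hlog2 := Real.log_two_gt_d9
  have hx2 : Real.log 2 ≤ x := by
    rw [hx]
    exact Real.log_le_log (by norm_num) hX2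
  have hxl : 0.69 ≤ x := by linarith
  have hA0 : 0 ≤ A := by
    rw [hA]
    exact Real.log_natCast_nonneg _
  have hAa : A ≤ a := by
    have := Real.log_le_sub_one_of_pos haR
    rw [hA]
    linarith
  have hqR : (1 : ℝ) ≤ q := by exact_mod_cast hq
  have hmR : (3 : ℝ) ≤ m := by exact_mod_cast hm
  have huE : ((a + v : ℕ) : ℝ) ≤ 4 * ((q : ℝ) * E) := by
    have h1 : a + v ≤ 4 * (q * E) := by
      have h2 : E ≤ q * E := Nat.le_mul_of_pos_left _ (by omega)
      have h3 : 2 ≤ a := by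
        have h4 : 2 ^ 100 ≤ X ^ 100 := Nat.pow_le_pow_left hX 100
        have h5 : 2 ≤ 2 ^ 100 := by norm_num
        omega
      omega
    exact_mod_cast h1
  have hau' : (a : ℝ) ≤ ((a + v : ℕ) : ℝ) := by exact_mod_cast (by omega : a ≤ a + v)
  have huR : (0 : ℝ) < ((a + v : ℕ) : ℝ) := lt_of_lt_of_le haR hau'
  -- the factors
  have f1 : ((a + b).choose a : ℝ) ≤ Real.exp (a * (2 * x + 1)) := by
    rw [hx]
    exact RV.H627.choose_exp ha0 hX hbX
  have f2 : (2 : ℝ) ^ ((m - 2) * a) ≤ Real.exp (((m : ℝ) - 2) * a * x) := by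
    have h1 : (2 : ℝ) ^ ((m - 2) * a) = Real.exp (((m : ℝ) - 2) * a * Real.log 2) := by
      have h2 : (((m - 2) * a : ℕ) : ℝ) = ((m : ℝ) - 2) * a := by
        rw [Nat.cast_mul, Nat.cast_sub (by omega)]
        push_cast
        ring
      rw [← h2, Real.exp_nat_mul, Real.exp_log (by norm_num)]
    rw [h1]
    apply Real.exp_le_exp.2
    exact mul_le_mul_of_nonneg_left hx2 (mul_nonneg (by linarith) haR.le)
  have hubXR : ((a + v : ℕ) : ℝ) ≤ Real.exp (x + A) := by
    rw [Real.exp_add, hx, hA, Real.exp_log hXR, Real.exp_log haR]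
    exact_mod_cast hub.trans hbX
  have f3 : (((2 * a * b) ^ (a + v - 1) : ℕ) : ℝ) ≤
      Real.exp (((a + v : ℕ) : ℝ) * (2 * A + 2 * x)) := by
    rw [Real.exp_nat_mul]
    have h1 : 2 * a * b ≤ X ^ 2 * a ^ 2 := by
      calc 2 * a * b ≤ X * a * (X * a) := Nat.mul_le_mul (Nat.mul_le_mul_right _ hX) hbX
        _ = X ^ 2 * a ^ 2 := by ring
    have h4 : Real.exp (2 * A + 2 * x) = (((X ^ 2 * a ^ 2 : ℕ)) : ℝ) := by
      rw [Real.exp_add, two_mul, two_mul, Real.exp_add, Real.exp_add, hx, hA, Real.exp_log hXR,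
        Real.exp_log haR]
      push_cast
      ring
    rw [h4]
    have h5 : (2 * a * b) ^ (a + v - 1) ≤ (X ^ 2 * a ^ 2) ^ (a + v) :=
      (Nat.pow_le_pow_left h1 _).trans (Nat.pow_le_pow_right (by positivity) (by omega))
    exact_mod_cast h5
  have f4 : (((a + v).factorial * (a + v - 2).factorial : ℕ) : ℝ) ≤
      Real.exp (2 * ((a + v : ℕ) : ℝ) * (x + A)) := by
    have h1 : ((a + v).factorial : ℝ) ≤ Real.exp (((a + v : ℕ) : ℝ) * (x + A)) := by
      rw [Real.exp_nat_mul]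
      calc ((a + v).factorial : ℝ) ≤ (((a + v) ^ (a + v) : ℕ) : ℝ) := by
            exact_mod_cast Nat.factorial_le_pow (a + v)
        _ = ((a + v : ℕ) : ℝ) ^ (a + v) := by push_cast; rfl
        _ ≤ _ := pow_le_pow_left₀ (Nat.cast_nonneg _) hubXR _
    have h2 : ((a + v - 2).factorial : ℝ) ≤ ((a + v).factorial : ℝ) := by
      exact_mod_cast Nat.factorial_le (by omega)
    calc (((a + v).factorial * (a + v - 2).factorial : ℕ) : ℝ)
        = ((a + v).factorial : ℝ) * ((a + v - 2).factorial : ℝ) := by push_cast; ring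
      _ ≤ Real.exp (((a + v : ℕ) : ℝ) * (x + A)) * Real.exp (((a + v : ℕ) : ℝ) * (x + A)) :=
          mul_le_mul h1 (h2.trans h1) (Nat.cast_nonneg _) (Real.exp_pos _).le
      _ = Real.exp (2 * ((a + v : ℕ) : ℝ) * (x + A)) := by
          rw [← Real.exp_add]
          congr 1
          ring
  have hGlow : Real.exp (2 * A - 3 * x) ≤ G := by
    have e3 : Real.exp (3 * x) = (X : ℝ) ^ 3 := by
      rw [hx, show (3 : ℝ) * Real.log X = ((3 : ℕ) : ℝ) * Real.log X by norm_num,
        Real.exp_nat_mul, Real.exp_log hXR]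
    rw [Real.exp_sub, e3, two_mul, Real.exp_add, hA, Real.exp_log haR,
      div_le_iff₀ (by positivity)]
    have h1 : a * a ≤ G * X ^ 3 := by
      have h2 : 4 * X ≤ a ^ 2 := by
        have h3 : X ^ 3 ≤ X ^ 100 := Nat.pow_le_pow_right hX0 (by norm_num)
        have h4 : 4 * X ≤ X ^ 3 := by
          calc 4 * X ≤ (X * X) * X := Nat.mul_le_mul_right _ (by nlinarith)
            _ = X ^ 3 := by ring
        have h5 : a ≤ a ^ 2 := Nat.le_self_pow (by norm_num) _
        omega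
      have h6 : a ^ 2 ≤ 4 * X * G := by
        have h7 : 2 * X * (G + 1) = 2 * X * G + 2 * X := by ring
        have h8 : 4 * X * G = 2 * X * G + 2 * X * G := by ring
        omega
      calc a * a = a ^ 2 := by ring
        _ ≤ 4 * X * G := h6
        _ ≤ (X * X) * X * G := by
            apply Nat.mul_le_mul_right
            apply Nat.mul_le_mul_right
            nlinarith
        _ = G * X ^ 3 := by ring
    exact_mod_cast h1
  have g1 : Real.exp ((2 * A - 3 * x) * (2 * (((a + v : ℕ) : ℝ) - 2))) ≤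
      (G : ℝ) ^ (2 * (a + v - 2)) := by
    have h1 : (((2 * (a + v - 2) : ℕ)) : ℝ) = 2 * (((a + v : ℕ) : ℝ) - 2) := by
      rw [Nat.cast_mul, Nat.cast_sub (by omega)]
      push_cast
      ring
    rw [← h1, mul_comm, Real.exp_nat_mul]
    exact pow_le_pow_left₀ (Real.exp_pos _).le hGlow _
  have g2 : Real.exp ((200 * (q : ℝ) - 2) * x * (((m : ℝ) - 2) * E)) ≤
      (1 + (y : ℝ) / ((a + v - 2 : ℕ) : ℝ)) ^ ((m - 2) * (a + v - 2 - a)) := by
    have h1 : (((m - 2) * (a + v - 2 - a) : ℕ) : ℝ) = ((m : ℝ) - 2) * E := by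
      rw [← hE, Nat.cast_mul, Nat.cast_sub (by omega)]
      push_cast
      ring
    rw [← h1, mul_comm, Real.exp_nat_mul]
    apply pow_le_pow_left₀ (Real.exp_pos _).le
    have hu2 : (0 : ℝ) < ((a + v - 2 : ℕ) : ℝ) := by
      have : 0 < a + v - 2 := by omega
      exact_mod_cast this
    have h2 : Real.exp ((200 * (q : ℝ) - 2) * x) = (X : ℝ) ^ (200 * q) / (X : ℝ) ^ 2 := by
      have e1 : (200 * (q : ℝ) - 2) * x = ((200 * q : ℕ) : ℝ) * x - ((2 : ℕ) : ℝ) * x := by
        push_cast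
        ring
      rw [e1, Real.exp_sub, Real.exp_nat_mul, Real.exp_nat_mul, hx, Real.exp_log hXR]
    have h3 : (X : ℝ) ^ (200 * q) / (X : ℝ) ^ 2 ≤ (y : ℝ) / ((a + v - 2 : ℕ) : ℝ) := by
      rw [div_le_div_iff₀ (by positivity) hu2]
      have h4 : X ^ (200 * q) * (a + v - 2) ≤ y * X ^ 2 := by
        calc X ^ (200 * q) * (a + v - 2) ≤ X ^ (200 * q) * (X * a) :=
              Nat.mul_le_mul_left _ (by omega)
          _ = X * (X ^ (200 * q) * a) := by ring
          _ ≤ X * (2 * y) := Nat.mul_le_mul_left _ hy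
          _ = 2 * (X * y) := by ring
          _ ≤ X * (X * y) := Nat.mul_le_mul_right _ hX
          _ = y * X ^ 2 := by ring
      exact_mod_cast h4
    rw [h2]
    linarith
  have hexp := expo (A := A) (x := x) (E := E) (u := ((a + v : ℕ) : ℝ)) (a := a) (m := m)
    (q := q) hxl hA0 hAa huE haR.le hau' hmR (Nat.cast_nonneg _) hqR
  calc (((a + b).choose a * 2 ^ ((m - 2) * a) * ((2 * a * b) ^ (a + v - 1) *
        ((a + v).factorial * (a + v - 2).factorial)) : ℕ) : ℝ)
      = ((a + b).choose a : ℝ) * 2 ^ ((m - 2) * a) * ((((2 * a * b) ^ (a + v - 1) : ℕ) : ℝ) *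
        (((a + v).factorial * (a + v - 2).factorial : ℕ) : ℝ)) := by push_cast; ring
    _ ≤ Real.exp (a * (2 * x + 1)) * Real.exp (((m : ℝ) - 2) * a * x) *
        (Real.exp (((a + v : ℕ) : ℝ) * (2 * A + 2 * x)) *
        Real.exp (2 * ((a + v : ℕ) : ℝ) * (x + A))) := by
        apply mul_le_mul _ _ (by positivity) (by positivity)
        · exact mul_le_mul f1 f2 (by positivity) (by positivity)
        · exact mul_le_mul f3 f4 (by positivity) (by positivity)
    _ = Real.exp (a * (2 * x + 1) + ((m : ℝ) - 2) * a * x +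
          ((a + v : ℕ) : ℝ) * (2 * A + 2 * x) + 2 * ((a + v : ℕ) : ℝ) * (x + A)) := by
        rw [Real.exp_add, Real.exp_add, Real.exp_add]
        ring
    _ ≤ Real.exp ((200 * (q : ℝ) - 2) * x * (((m : ℝ) - 2) * E) +
          (2 * A - 3 * x) * (2 * (((a + v : ℕ) : ℝ) - 2))) := Real.exp_le_exp.2 hexp
    _ = Real.exp ((2 * A - 3 * x) * (2 * (((a + v : ℕ) : ℝ) - 2))) *
          Real.exp ((200 * (q : ℝ) - 2) * x * (((m : ℝ) - 2) * E)) := by
        rw [Real.exp_add, mul_comm]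
    _ ≤ _ := mul_le_mul g1 g2 (Real.exp_pos _).le (by positivity)

end Vale.Agent.P181.RH.H627
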