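import Vale.Agent.P181.RH.Defs
import Vale.Agent.P181.RV.H627.UDefs

set_option autoImplicit false

/-!
# P181, RHU: RH uniform in `q` (`δ = 1 / q`), hence `b ≥ a + C a loglog a / log a`: the literals
-/

namespace Vale.Agent.P181.RH

open Finset Vale.Agent.P181 Vale.Agent.P181.H280 Vale.Agent.P181.H463

/-- **[PARU]** the parameters of `ParRH`, uniform in `q`. -/
def ParRHU : Prop := ∃ X₀ : ℕ, ∀ q a b X m : ℕ, 1 ≤ q → 2 * q ≤ X → X₀ ≤ X → X ^ 100 ≤ a →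
  (q + 1) * a ≤ q * b → b ≤ X * a → 3 ≤ m → m ≤ X →
  ∃ u D1 D2 R2 R3 f₀ f₂ F₀ F₂ T s : ℕ, NumD u m D1 D2 R2 R3 a f₀ f₂ F₀ F₂ T s ∧
    u + ∑ r : Fin m, ff m f₀ f₂ r = b ∧ (2 * q + 1) * a + 4 * q ≤ 2 * q * u ∧
    2 * X * (u * D1 + R2 + (u * D2 + R3)) ≤ a ^ 2 ∧ u * D2 + R3 ≤ X ^ 14 * a

/-- **[NUMU]** the final inequality, uniform in `q`. -/
def NumRHU : Prop := ∃ K X₀ : ℕ, 100 ≤ K ∧ ∀ q a b X m u y G : ℕ, 1 ≤ q → q ≤ X → X₀ ≤ X →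
  X ^ 100 ≤ a → (q + 1) * a + 2 * q ≤ q * u → u ≤ b → b ≤ X * a → 3 ≤ m → m ≤ X →
  X ^ (K * q) * a ≤ 2 * y → a ^ 2 ≤ 2 * X * (G + 1) →
  (((a + b).choose a * 2 ^ ((m - 2) * a) * ((2 * a * b) ^ (u - 1) *
    (u.factorial * (u - 2).factorial)) : ℕ) : ℝ) ≤
    (G : ℝ) ^ (2 * (u - 2)) * (1 + (y : ℝ) / (u - 2 : ℕ)) ^ ((m - 2) * (u - 2 - a))

/-- **[COREU]** from [PARU], [LOW], [NUMU], `TL.UpB`, `RG.HalfRG`, `gt_growth_rows`. -/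
def CoreRHU : Prop := ∃ K X₀ : ℕ,
  ∀ (q a b X m n : ℕ) (lam : Fin (n + 2) → ℕ), 1 ≤ q → 2 * q ≤ X → X₀ ≤ X → X ^ (K * q) ≤ a →
  Antitone lam → ∑ i, lam i = a * b → n + 2 ≤ a → (q + 1) * a ≤ q * b → b ≤ X * a → 3 ≤ m →
  m ≤ X → m ≤ n + 2 → (∀ i : Fin (n + 2), 2 ≤ (i : ℕ) → a ^ 2 + X * lam i ≤ X * lam 1) →
  (∀ i : Fin (n + 2), (i : ℕ) < m → X ^ (K * q) * a ≤ lam i ∧
    ∀ j : Fin (n + 2), m ≤ (j : ℕ) → X ^ (K * q) * a + lam j ≤ lam i) →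
  plethMult a b (n + 2) lam ≤ plethMult b a (n + 2) lam

/-- **[NEARH]** (from `CoreRHU`, `RV.NearV`, `FatLog`, `UniY`, `PolyS`): `b ≥ a + C a loglog a / log a`
and at least `a ^ (1 + κ)` cells below row two. -/
def NearH : Prop := ∀ κ : ℝ, 0 < κ → ∃ (C : ℝ) (a₀ : ℕ), 0 < C ∧
  ∀ (a b n : ℕ) (lam : Fin n → ℕ), a₀ ≤ a →
  C * b * Real.log (2 + Real.log a) ≤ ((b : ℝ) - a) * Real.log a →
  (a : ℝ) ^ (1 + κ) ≤ (PL.dn lam 2 : ℝ) → plethMult a b n lam ≤ plethMult b a n lam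

end Vale.Agent.P181.RH
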